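import Vale.Agent.P132.H8.Nf
import Vale.Agent.P132.H8.Defs

/-!
# P132: Connes' bicentralizer conjecture, intertwiners of two states, states which are not faithful

For every type III₁ factor `M` (a factor with `S(M) = [0, ∞)`, `S(M)` computed with all faithful
normal semifinite weights, no separability assumption):

1. `B(M, φ) = ℂ 1` for every faithful normal state `φ` of `M`;
2. for all faithful normal states `φ`, `ψ` of `M`, all `λ > 0` and all `a, b ∈ M`: if
   `a w_n - w_n b → 0` strongly for every uniformly bounded sequence `(w_n)` in `M` with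
   `‖w_n ψ - λ φ w_n‖ → 0`, then `a = b` is a scalar;
3. if `M` has a faithful normal state, then `B(M, φ) = ℂ 1` for every normal state `φ` of `M`,
   faithful or not.
-/

open Filter Topology

namespace Vale.Agent.Results.P132.AsymptoticIntertwiners

open Vale.Agent.P132

universe u

/-- **Connes' bicentralizer conjecture**, for one state and for two states. -/
theorem result :
    ∀ (H : Type u) [NormedAddCommGroup H] [InnerProductSpace ℂ H] [CompleteSpace H]
      (M : VonNeumannAlgebra H), IsTypeIIIOneFactor M →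
      (∀ φ : (H →L[ℂ] H) → ℂ, IsNormalState M φ → IsFaithful M φ →
        bicentralizer M φ = {a | ∃ c : ℂ, a = c • 1}) ∧
      (∀ φ ψ : (H →L[ℂ] H) → ℂ, IsNormalState M φ → IsFaithful M φ → IsNormalState M ψ →
        IsFaithful M ψ → ∀ lam : ℝ, 0 < lam → ∀ a ∈ M, ∀ b ∈ M,
          (∀ w : ℕ → (H →L[ℂ] H), (∀ n, w n ∈ M) → (∃ C : ℝ, ∀ n, ‖w n‖ ≤ C) →
            AsympIntertwines M φ ψ lam w →
            ∀ ζ : H, Tendsto (fun n => (a * w n - w n * b) ζ) atTop (𝓝 0)) →
          ∃ c : ℂ, a = c • 1 ∧ b = c • 1) ∧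
      ((∃ χ : (H →L[ℂ] H) → ℂ, IsNormalState M χ ∧ IsFaithful M χ) →
        ∀ φ : (H →L[ℂ] H) → ℂ, IsNormalState M φ →
          bicentralizer M φ = {a | ∃ c : ℂ, a = c • 1}) := by
  intro H _ _ _ M hM
  refine ⟨fun φ hφ hf => bicentralizer_eq_of_weights hM hφ hf, ?_, ?_⟩
  · intro φ ψ hφ hφf hψ hψf lam hl a ha b hb h
    obtain ⟨V, hV1, hV⟩ := H8.exists_st hφ
    obtain ⟨W, hW1, hW⟩ := H8.exists_st hψ
    have sV := H8.sep_of hφf hV1 hV
    have sW := H8.sep_of hψf hW1 hW
    have hH : H8.Hyp M V W lam a b := by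
      intro w hw hC hwc
      refine h w hw hC fun ε hε => ?_
      filter_upwards [hwc ε hε] with n hn y hy hy1
      rw [hW _ (mul_mem hy (hw n)), hV _ (mul_mem (hw n) hy)]
      exact hn y hy hy1
    have h1 := H8.left_mem hM sV sW hl ha hH
    rw [bicentralizer_eq_of_weights hM (H8.isNormal_st hV1) sV.faithful] at h1
    obtain ⟨c, rfl⟩ := h1
    exact ⟨c, rfl, H8.right_eq hM sV sW hl hb hH⟩
  · rintro ⟨χ, hχ, hχf⟩ φ hφ
    obtain ⟨V, hV1, hV⟩ := H8.exists_st hφ
    rw [H8.bicentralizer_congr hV]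
    apply Set.Subset.antisymm
    · intro a ha
      exact H8.mem_bic_scalar hM hχ hχf hV1 ha
    · rintro a ⟨c, rfl⟩
      exact H8.scalar_mem _ c

end Vale.Agent.Results.P132.AsymptoticIntertwiners
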