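import Vale.Agent.P132.H723.AvgComm

/-!
# P132: Connes' bicentralizer conjecture, with Haagerup's averaging property

For every type III₁ factor `M` (a factor with `S(M) = [0, ∞)`, `S(M)` computed with all faithful
normal semifinite weights, no separability assumption) and every faithful normal state `φ` of `M`:

1. the bicentralizer `B(M, φ)` consists of the scalars;
2. (averaging) for all `δ, ε > 0`, all finite sets `X ⊆ M`, `Z ⊆ H` and all finite sets `Ω` of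
   normal states of `M` there is one finite convex combination `α = ∑ c_i Ad(u_i)`, `u_i` unitaries
   of `M` with `‖u_i φ - φ u_i‖ ≤ δ`, such that `‖α(x) ζ - φ(x) ζ‖ ≤ ε` for `x ∈ X`, `ζ ∈ Z` and
   `‖ω ∘ α - φ‖ ≤ ε` in the norm of the predual for all `ω ∈ Ω`;
3. (commutators) for all `a ∈ M` and `δ, ε > 0` there is a unitary `u ∈ M` with
   `‖u φ - φ u‖ ≤ δ` and `‖u a - a u‖_φ² ≥ 2 ‖a - φ(a) 1‖_φ² - ε`, where `‖x‖_φ² = φ(x* x)`.
-/

namespace Vale.Agent.Results.P132.BicentralizerAveraging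

open Vale.Agent.P132

universe u

/-- **Connes' bicentralizer conjecture**, the averaging property and the commutator estimate. -/
theorem result :
    ∀ (H : Type u) [NormedAddCommGroup H] [InnerProductSpace ℂ H] [CompleteSpace H]
      (M : VonNeumannAlgebra H), IsTypeIIIOneFactor M →
      ∀ φ : (H →L[ℂ] H) → ℂ, IsNormalState M φ → IsFaithful M φ →
        bicentralizer M φ = {a | ∃ c : ℂ, a = c • 1} ∧
        (∀ δ > 0, ∀ ε > 0, ∀ (X : Finset (H →L[ℂ] H)) (Z : Finset H)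
          (Ω : Finset ((H →L[ℂ] H) → ℂ)), (∀ x ∈ X, x ∈ M) → (∀ ω ∈ Ω, IsNormalState M ω) →
          ∃ α ∈ averagings M φ δ, (∀ x ∈ X, ∀ ζ ∈ Z, ‖α x ζ - φ x • ζ‖ ≤ ε) ∧
            ∀ ω ∈ Ω, ∀ y ∈ M, ‖ω (α y) - φ y‖ ≤ ε * ‖y‖) ∧
        (∀ a ∈ M, ∀ δ > 0, ∀ ε > 0, ∃ u ∈ almostCentralizing M φ δ,
          2 * (φ (star (a - φ a • 1) * (a - φ a • 1))).re - ε ≤
            (φ (star (u * a - a * u) * (u * a - a * u))).re) := by
  intro H _ _ _ M hM φ hφ hf
  refine ⟨bicentralizer_eq_of_weights hM hφ hf, ?_, fun a ha δ hδ ε hε =>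
    PD.comm_estimate hM hφ hf ha hδ hε⟩
  intro δ hδ ε hε X Z Ω hX hΩ
  have eX := X.equivFin
  have eZ := Z.equivFin
  have eΩ := Ω.equivFin
  obtain ⟨n, c, u, hc0, hc1, hu, h1, h2⟩ := PD.averaging_main hM hφ hf
    (x := fun i => ((eX.symm i : X) : H →L[ℂ] H)) (fun i => hX _ (eX.symm i).2)
    (fun i => ((eZ.symm i : Z) : H)) (ω := fun i => ((eΩ.symm i : Ω) : (H →L[ℂ] H) → ℂ))
    (fun i => hΩ _ (eΩ.symm i).2) hδ hε
  refine ⟨fun x => ∑ i, (c i : ℂ) • (u i * x * star (u i)), ⟨n, c, u, hc0, hc1, hu, fun _ => rfl⟩,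
    fun x hx ζ hζ => ?_, fun ω hω y hy => ?_⟩
  · have h3 := h1 (eX ⟨x, hx⟩) (eZ ⟨ζ, hζ⟩)
    simpa using h3
  · have h3 := h2 (eΩ ⟨ω, hω⟩) y hy
    simpa using h3

end Vale.Agent.Results.P132.BicentralizerAveraging
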