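import Vale.Agent.P132.N723.Final

/-!
# P132: Connes' bicentralizer conjecture, central matrix algebras, irreducible centralizers, masas

For every type III₁ factor `M` on a Hilbert space `H` (a factor with `S(M) = [0, ∞)`, `S(M)`
computed with all faithful normal semifinite weights):

1. `B(M, φ) = ℂ 1` for every faithful normal state `φ` of `M` (no separability assumption);
2. (no separability assumption) for every faithful normal state `φ`, every `δ > 0` and every finite
   `X ⊆ M` there are matrix units `e_ij` of a unital matrix algebra `F ⊆ M` such that the conditional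
   expectation `E(x) = (1/n) ∑ e_ij x e_ji` of `M` onto `F' ∩ M` satisfies `‖φ ∘ E - φ‖ ≤ δ` in the
   predual and `φ(|E(x) - φ(x) 1|²) ≤ δ` for `x ∈ X`. This contains 1.;
3. if `H` is separable, the faithful normal states `ψ` of `M` whose centralizer `M_ψ` contains an
   increasing sequence `F_1 ⊆ F_2 ⊆ ...` of unital matrix algebras with `(⋃ F_k)' ∩ M = ℂ 1`, so
   that `(M_ψ)' ∩ M = ℂ 1`, are norm dense among all normal states of `M`;
4. if `H` is separable, the faithful normal states `ψ` of `M` whose centralizer `M_ψ` contains a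
   maximal abelian subalgebra `A` of `M` are norm dense among all normal states of `M`.
-/

namespace Vale.Agent.Results.P132.CentralizerMasas

open Vale.Agent.P132

universe u

/-- **Connes' bicentralizer conjecture**, central matrix algebras, irreducible centralizers of a
dense set of states, and maximal abelian subalgebras in centralizers. -/
theorem result :
    ∀ (H : Type u) [NormedAddCommGroup H] [InnerProductSpace ℂ H] [CompleteSpace H]
      (M : VonNeumannAlgebra H), IsTypeIIIOneFactor M →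
      (∀ φ : (H →L[ℂ] H) → ℂ, IsNormalState M φ → IsFaithful M φ →
        bicentralizer M φ = {a | ∃ c : ℂ, a = c • 1} ∧
        ∀ δ > 0, ∀ X : Finset (H →L[ℂ] H), (∀ x ∈ X, x ∈ M) →
          ∃ (n : ℕ) (e : Fin n → Fin n → (H →L[ℂ] H)), MU M e ∧
            (∀ y ∈ M, ‖φ (mavg e y) - φ y‖ ≤ δ * ‖y‖) ∧
            ∀ x ∈ X, (φ (star (mavg e x - φ x • 1) * (mavg e x - φ x • 1))).re ≤ δ) ∧
      (TopologicalSpace.SeparableSpace H → ∀ φ : (H →L[ℂ] H) → ℂ, IsNormalState M φ →
        ∀ ε > 0,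
          (∃ ψ : (H →L[ℂ] H) → ℂ, IsNormalState M ψ ∧ IsFaithful M ψ ∧
            (∀ y ∈ M, ‖ψ y - φ y‖ ≤ ε * ‖y‖) ∧
            (∀ y ∈ M, (∀ a ∈ stateCentralizer M ψ, a * y = y * a) → ∃ c : ℂ, y = c • 1) ∧
            ∃ (n : ℕ → ℕ) (e : ∀ k, Fin (n k) → Fin (n k) → (H →L[ℂ] H)), (∀ k, MU M (e k)) ∧
              (∀ k i j, e k i j ∈ Submodule.span ℂ
                (Set.range fun p : Fin (n (k + 1)) × Fin (n (k + 1)) => e (k + 1) p.1 p.2)) ∧
              (∀ k i j, e k i j ∈ stateCentralizer M ψ) ∧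
              ∀ y ∈ M, (∀ k i j, e k i j * y = y * e k i j) → ∃ c : ℂ, y = c • 1) ∧
          ∃ ψ : (H →L[ℂ] H) → ℂ, IsNormalState M ψ ∧ IsFaithful M ψ ∧
            (∀ y ∈ M, ‖ψ y - φ y‖ ≤ ε * ‖y‖) ∧
            ∃ A : VonNeumannAlgebra H, IsMasa M A ∧ ∀ a ∈ A, a ∈ stateCentralizer M ψ) := by
  intro H _ _ _ M hM
  refine ⟨fun φ hφ hf => ⟨bicentralizer_eq_of_weights hM hφ hf, fun δ hδ X hX =>
    matrix_main hM hφ hf X hX hδ⟩, ?_⟩
  intro _ φ hφ ε hε
  refine ⟨?_, masa_dense hM hφ hε⟩
  obtain ⟨ψ, h1, h2, h3, n, e, h4, h5, h6, h7⟩ := irr_dense hM hφ hε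
  exact ⟨ψ, h1, h2, h3, fun y hy h => h7 y hy fun k i j => h _ (h6 k i j), n, e, h4, h5, h6, h7⟩

end Vale.Agent.Results.P132.CentralizerMasas
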